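import Mathlib
import Vale.Agent.Lib.P047E.Main

/-- Every Boolean function on the discrete cube of degree at most four, on any number of variables,
has sum of level-one Fourier coefficients at most `2 = √4`. -/
theorem Vale.Agent.Results.P047.DegreeFour.result
    (n : ℕ) (f : (Fin n → ℤˣ) → ℤˣ)
    (hdeg : ∀ S : Finset (Fin n), 4 < S.card →
      ∑ x : Fin n → ℤˣ, ((f x : ℤ) * ∏ i ∈ S, ((x i : ℤˣ) : ℤ)) = 0) :
    ∑ i : Fin n, ((∑ x : Fin n → ℤˣ, ((f x : ℤ) * ((x i : ℤˣ) : ℤ)) : ℤ) : ℝ) / 2 ^ n ≤ 2 := by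
  have h5 : ∀ S : Finset (Fin n), 5 ≤ S.card →
      Vale.Agent.Lib.P047D.hat (fun x => ((f x : ℤˣ) : ℤ)) S = 0 :=
    fun S hS => hdeg S (by omega)
  have hb := Vale.Agent.Lib.P047E.level_one_bound f h5
  rw [Vale.Agent.Lib.P047D.T_coeff_one] at hb
  have hpos : (0 : ℝ) < 2 ^ n := by positivity
  rw [← Finset.sum_div, div_le_iff₀ hpos]
  refine le_trans (le_of_eq ?_) hb
  rw [Int.cast_sum]
  refine Finset.sum_congr rfl fun i _ => ?_
  simp [Vale.Agent.Lib.P047D.hat]
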