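import Mathlib
import Vale.Agent.Lib.P047FP.Level

open Finset

/-- Let the cube `{-1,1}^n` be covered by a nonnegative weighted family of subcubes (the subcube
`c` fixes the coordinates in `A c` to the values of `σ c`, and it has weight `w c`), so that each
point of the cube gets total weight exactly one, and let `f` be constant on each subcube of
nonzero weight.  Then, writing `W` for the sum of the level-one Fourier coefficients of `f` and `m`
for its mean, `W ^ 2 ≤ (1 - m ^ 2) * κ`, where `κ = ∑ c, w c * |A c| / 2 ^ |A c|` is the average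
codimension of the piece containing a random point.  If moreover all subcubes of nonzero weight have
codimension at most `k`, then `W ≤ E |X_1 + ... + X_k|`. -/
theorem Vale.Agent.Results.P047.FractionalPartition.result
    (n : ℕ) (f : (Fin n → ℤˣ) → ℤˣ) {ι : Type} [Fintype ι]
    (A : ι → Finset (Fin n)) (σ : ι → Fin n → ℤˣ) (w : ι → ℝ) (hw : ∀ c, 0 ≤ w c)
    (hcover : ∀ x : Fin n → ℤˣ, ∑ c, (if ∀ i ∈ A c, x i = σ c i then w c else 0) = 1)
    (hmono : ∀ c, w c ≠ 0 → ∀ x y, (∀ i ∈ A c, x i = σ c i) → (∀ i ∈ A c, y i = σ c i) →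
      f x = f y) :
    (∑ i, (∑ x, ((f x : ℤ) : ℝ) * ((x i : ℤ) : ℝ)) / 2 ^ n) ^ 2
        ≤ (1 - ((∑ x, ((f x : ℤ) : ℝ)) / 2 ^ n) ^ 2)
          * ∑ c, w c * ((A c).card : ℝ) / 2 ^ (A c).card
      ∧ ∀ k : ℕ, (∀ c, w c ≠ 0 → (A c).card ≤ k) →
        ∑ i, (∑ x, ((f x : ℤ) : ℝ) * ((x i : ℤ) : ℝ)) / 2 ^ n
          ≤ (∑ j ∈ range (k + 1), (k.choose j : ℝ) * |2 * (j : ℝ) - (k : ℝ)|) / 2 ^ k := by
  have hc : ∀ x, ∑ c, w c * Vale.Agent.Lib.P047FP.ind (A c) (σ c) x = 1 := by
    intro x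
    rw [← hcover x]
    refine Finset.sum_congr rfl fun c _ => ?_
    unfold Vale.Agent.Lib.P047FP.ind
    split_ifs <;> simp
  exact ⟨Vale.Agent.Lib.P047FP.sqrt_bound f A σ w hw hc hmono,
    fun k hk => Vale.Agent.Lib.P047FP.level_bound f A σ w hw hc hmono k hk⟩
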