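import Mathlib
import Vale.Agent.Lib.P047T.Main

open Vale.Agent.Lib.P047T

/-- Tensor power trick and gap dichotomy for the growth of `M(d)`.
(1) For every exponent `a ≥ 0`, the bound `W f ≤ C * d ^ a` for all Boolean `f` of degree at most
`d ≥ 1`, with some constant `C`, is equivalent to `W f ≤ d ^ a` for all odd `f` of degree at most
`d ≥ 1`.
(2) For every `a`, the second bound implies `W f + |Mean f| ≤ (d + 1) ^ a` for all `f` of degree at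
most `d`.
(3) The case `a = 1 / 2` of (1), written with square roots.
(4) Either `W f ≤ sqrt d` for all odd `f` and `W f + |Mean f| ≤ sqrt (d + 1)` for all `f`, or else
there are `c, C > 0` such that for every `d ≥ 1` some `f` of degree at most `d` has
`W f ≥ C * d ^ (1 / 2 + c)`. -/
theorem Vale.Agent.Results.P047.GapDichotomy.result :
    (∀ a : ℝ, 0 ≤ a →
      ((∃ C : ℝ, ∀ (n : ℕ) (f : (Fin n → ℤˣ) → ℤˣ) (d : ℕ), 1 ≤ d → HasDegLE f d →
          W f ≤ C * (d : ℝ) ^ a) ↔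
        (∀ (n : ℕ) (f : (Fin n → ℤˣ) → ℤˣ) (d : ℕ), 1 ≤ d → IsOddFn f → HasDegLE f d →
          W f ≤ (d : ℝ) ^ a))) ∧
    (∀ a : ℝ,
      (∀ (n : ℕ) (f : (Fin n → ℤˣ) → ℤˣ) (d : ℕ), 1 ≤ d → IsOddFn f → HasDegLE f d →
          W f ≤ (d : ℝ) ^ a) →
        (∀ (n : ℕ) (f : (Fin n → ℤˣ) → ℤˣ) (d : ℕ), HasDegLE f d →
          W f + |Mean f| ≤ ((d : ℝ) + 1) ^ a)) ∧
    ((∃ C : ℝ, ∀ (n : ℕ) (f : (Fin n → ℤˣ) → ℤˣ) (d : ℕ), 1 ≤ d → HasDegLE f d →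
        W f ≤ C * Real.sqrt d) ↔
      (∀ (n : ℕ) (f : (Fin n → ℤˣ) → ℤˣ) (d : ℕ), 1 ≤ d → IsOddFn f → HasDegLE f d →
        W f ≤ Real.sqrt d)) ∧
    (((∀ (n : ℕ) (f : (Fin n → ℤˣ) → ℤˣ) (d : ℕ), 1 ≤ d → IsOddFn f → HasDegLE f d →
          W f ≤ Real.sqrt d) ∧
        (∀ (n : ℕ) (f : (Fin n → ℤˣ) → ℤˣ) (d : ℕ), HasDegLE f d →
          W f + |Mean f| ≤ Real.sqrt ((d : ℝ) + 1))) ∨
      (∃ c : ℝ, 0 < c ∧ ∃ C : ℝ, 0 < C ∧ ∀ d : ℕ, 1 ≤ d →
        ∃ (n : ℕ) (f : (Fin n → ℤˣ) → ℤˣ), HasDegLE f d ∧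
          C * (d : ℝ) ^ ((1 : ℝ) / 2 + c) ≤ W f)) := by
  have hpart2 : ∀ a : ℝ,
      (∀ (n : ℕ) (f : (Fin n → ℤˣ) → ℤˣ) (d : ℕ), 1 ≤ d → IsOddFn f → HasDegLE f d →
          W f ≤ (d : ℝ) ^ a) →
        (∀ (n : ℕ) (f : (Fin n → ℤˣ) → ℤˣ) (d : ℕ), HasDegLE f d →
          W f + |Mean f| ≤ ((d : ℝ) + 1) ^ a) := by
    intro a h1 n f d hg
    have := all_of_odd a h1 hg
    simpa using this
  have hall : (∀ (n : ℕ) (f : (Fin n → ℤˣ) → ℤˣ) (d : ℕ), 1 ≤ d → IsOddFn f → HasDegLE f d →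
        W f ≤ Real.sqrt d) →
      ∀ (n : ℕ) (f : (Fin n → ℤˣ) → ℤˣ) (d : ℕ), HasDegLE f d →
        W f + |Mean f| ≤ Real.sqrt ((d : ℝ) + 1) := by
    intro hodd n f d hg
    have h2 : ∀ (n : ℕ) (f : (Fin n → ℤˣ) → ℤˣ) (d : ℕ), 1 ≤ d → IsOddFn f → HasDegLE f d →
        W f ≤ (d : ℝ) ^ ((1 : ℝ) / 2) := by
      intro n f d hd ho hg
      rw [← Real.sqrt_eq_rpow]
      exact hodd n f d hd ho hg
    have := hpart2 _ h2 n f d hg
    rw [Real.sqrt_eq_rpow]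
    exact this
  refine ⟨?_, hpart2, ⟨?_, ?_⟩, ?_⟩
  · -- exponent form
    intro a ha
    constructor
    · rintro ⟨C, hC⟩ n f d hd ho hg
      exact tensor a C hC hd ho hg
    · intro hodd
      refine ⟨(2 : ℝ) ^ a, fun n f d hd hg => ?_⟩
      have h4 := hpart2 a hodd n f d hg
      have h5 : W f ≤ ((d : ℝ) + 1) ^ a := le_trans (le_add_of_nonneg_right (abs_nonneg _)) h4
      refine le_trans h5 ?_
      rw [← Real.mul_rpow (by norm_num) (Nat.cast_nonneg d)]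
      have h1d : (1 : ℝ) ≤ d := by exact_mod_cast hd
      exact Real.rpow_le_rpow (by positivity) (by linarith) ha
  · -- the weak form implies the strong form on odd functions
    rintro ⟨C, hC⟩
    have h3 : ∀ (n : ℕ) (f : (Fin n → ℤˣ) → ℤˣ) (d : ℕ), 1 ≤ d → HasDegLE f d →
        W f ≤ C * (d : ℝ) ^ ((1 : ℝ) / 2) := by
      intro n f d hd hg
      rw [← Real.sqrt_eq_rpow]
      exact hC n f d hd hg
    intro n f d hd ho hg
    rw [Real.sqrt_eq_rpow]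
    exact tensor _ C h3 hd ho hg
  · -- the strong form on odd functions implies the weak form
    intro hodd
    refine ⟨Real.sqrt 2, fun n f d hd hg => ?_⟩
    have h4 := hall hodd n f d hg
    have h5 : W f ≤ Real.sqrt ((d : ℝ) + 1) := le_trans (le_add_of_nonneg_right (abs_nonneg _)) h4
    refine le_trans h5 ?_
    rw [← Real.sqrt_mul (by norm_num)]
    apply Real.sqrt_le_sqrt
    have : (1 : ℝ) ≤ d := by exact_mod_cast hd
    linarith
  · -- the dichotomy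
    by_cases hP : ∀ (n : ℕ) (f : (Fin n → ℤˣ) → ℤˣ) (d : ℕ), 1 ≤ d → IsOddFn f → HasDegLE f d →
        W f ≤ Real.sqrt d
    · exact Or.inl ⟨hP, hall hP⟩
    · right
      push Not at hP
      obtain ⟨n0, f0, d0, hd0, ho, hg, hW⟩ := hP
      exact growth_of_violation hd0 ho hg hW
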