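import Mathlib
import Vale.Agent.Lib.P047b.Main

/-- For every Boolean function on the discrete cube of degree at most `d`, with `d ≥ 2`, the sum of
the level-one Fourier coefficients is at most `(24/25) * d`. -/
theorem Vale.Agent.Results.P047.LevelOneConstant.result
    (n d : ℕ) (hd : 2 ≤ d) (f : (Fin n → ℤˣ) → ℤˣ)
    (hdeg : ∀ S : Finset (Fin n), d < S.card →
      ∑ x : Fin n → ℤˣ, ((f x : ℤ) * ∏ i ∈ S, ((x i : ℤˣ) : ℤ)) = 0) :
    ∑ i : Fin n, ((∑ x : Fin n → ℤˣ, ((f x : ℤ) * ((x i : ℤˣ) : ℤ)) : ℤ) : ℝ) / 2 ^ n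
      ≤ (24 / 25 : ℝ) * d := by
  classical
  set g : (Fin n → ℤˣ) → ℝ := fun x => Vale.Agent.Lib.P047b.sg (f x) with hg
  have hbool : ∀ x, g x = 1 ∨ g x = -1 := fun x => Vale.Agent.Lib.P047b.sg_cases (f x)
  have hdeg' : ∀ S : Finset (Fin n), d < S.card → Vale.Agent.Lib.P047b.hatR g S = 0 := by
    intro S hS
    have h := hdeg S hS
    have h2 : (∑ x : Fin n → ℤˣ, g x * Vale.Agent.Lib.P047b.chi S x) = 0 := by
      have h3 := congrArg (fun z : ℤ => (z : ℝ)) h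
      simpa [hg, Vale.Agent.Lib.P047b.chi, Vale.Agent.Lib.P047b.sg] using h3
    simp [Vale.Agent.Lib.P047b.hatR, h2]
  have hmain := Vale.Agent.Lib.P047b.boolean_main hd hbool hdeg'
  refine le_trans (le_of_eq ?_) hmain
  refine Finset.sum_congr rfl fun i _ => ?_
  simp [Vale.Agent.Lib.P047b.hatR, Vale.Agent.Lib.P047b.chi, Vale.Agent.Lib.P047b.sg, hg]
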