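import Mathlib
import Vale.Agent.Results.P047.DegreeFour
import Vale.Agent.Results.P047.LevelOneConstant
import Vale.Agent.Results.P047.FractionalPartition
import Vale.Agent.Results.P047.GapDichotomy

open Vale.Agent.Lib.P047T

/-- Conjunction of the four results on the Gopalan-Servedio conjecture.
(A) Every Boolean function of degree at most four has level-one sum at most `2 = √4`.
(B) Every Boolean function of degree at most `d ≥ 2` has level-one sum at most `(24/25) * d`.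
(C) The level-one bound for functions with a fractional partition into monochromatic subcubes.
(D) The tensor power equivalences and the gap dichotomy for the growth of `M(d)`. -/
theorem Vale.Agent.Results.P047.A0Conj.result :
    (∀ (n : ℕ) (f : (Fin n → ℤˣ) → ℤˣ),
      (∀ S : Finset (Fin n), 4 < S.card →
        ∑ x : Fin n → ℤˣ, ((f x : ℤ) * ∏ i ∈ S, ((x i : ℤˣ) : ℤ)) = 0) →
      ∑ i : Fin n, ((∑ x : Fin n → ℤˣ, ((f x : ℤ) * ((x i : ℤˣ) : ℤ)) : ℤ) : ℝ) / 2 ^ n ≤ 2) ∧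
    (∀ (n d : ℕ), 2 ≤ d → ∀ f : (Fin n → ℤˣ) → ℤˣ,
      (∀ S : Finset (Fin n), d < S.card →
        ∑ x : Fin n → ℤˣ, ((f x : ℤ) * ∏ i ∈ S, ((x i : ℤˣ) : ℤ)) = 0) →
      ∑ i : Fin n, ((∑ x : Fin n → ℤˣ, ((f x : ℤ) * ((x i : ℤˣ) : ℤ)) : ℤ) : ℝ) / 2 ^ n
        ≤ (24 / 25 : ℝ) * d) ∧
    (∀ (n : ℕ) (f : (Fin n → ℤˣ) → ℤˣ) (ι : Type) [Fintype ι]
      (A : ι → Finset (Fin n)) (σ : ι → Fin n → ℤˣ) (w : ι → ℝ), (∀ c, 0 ≤ w c) →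
      (∀ x : Fin n → ℤˣ, ∑ c, (if ∀ i ∈ A c, x i = σ c i then w c else 0) = 1) →
      (∀ c, w c ≠ 0 → ∀ x y, (∀ i ∈ A c, x i = σ c i) → (∀ i ∈ A c, y i = σ c i) →
        f x = f y) →
      (∑ i, (∑ x, ((f x : ℤ) : ℝ) * ((x i : ℤ) : ℝ)) / 2 ^ n) ^ 2
          ≤ (1 - ((∑ x, ((f x : ℤ) : ℝ)) / 2 ^ n) ^ 2)
            * ∑ c, w c * ((A c).card : ℝ) / 2 ^ (A c).card
        ∧ ∀ k : ℕ, (∀ c, w c ≠ 0 → (A c).card ≤ k) →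
          ∑ i, (∑ x, ((f x : ℤ) : ℝ) * ((x i : ℤ) : ℝ)) / 2 ^ n
            ≤ (∑ j ∈ Finset.range (k + 1), (k.choose j : ℝ) * |2 * (j : ℝ) - (k : ℝ)|) / 2 ^ k) ∧
    ((∀ a : ℝ, 0 ≤ a →
      ((∃ C : ℝ, ∀ (n : ℕ) (f : (Fin n → ℤˣ) → ℤˣ) (d : ℕ), 1 ≤ d → HasDegLE f d →
          W f ≤ C * (d : ℝ) ^ a) ↔
        (∀ (n : ℕ) (f : (Fin n → ℤˣ) → ℤˣ) (d : ℕ), 1 ≤ d → IsOddFn f → HasDegLE f d →
          W f ≤ (d : ℝ) ^ a))) ∧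
    (∀ a : ℝ,
      (∀ (n : ℕ) (f : (Fin n → ℤˣ) → ℤˣ) (d : ℕ), 1 ≤ d → IsOddFn f → HasDegLE f d →
          W f ≤ (d : ℝ) ^ a) →
        (∀ (n : ℕ) (f : (Fin n → ℤˣ) → ℤˣ) (d : ℕ), HasDegLE f d →
          W f + |Mean f| ≤ ((d : ℝ) + 1) ^ a)) ∧
    ((∃ C : ℝ, ∀ (n : ℕ) (f : (Fin n → ℤˣ) → ℤˣ) (d : ℕ), 1 ≤ d → HasDegLE f d →
        W f ≤ C * Real.sqrt d) ↔
      (∀ (n : ℕ) (f : (Fin n → ℤˣ) → ℤˣ) (d : ℕ), 1 ≤ d → IsOddFn f → HasDegLE f d →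
        W f ≤ Real.sqrt d)) ∧
    (((∀ (n : ℕ) (f : (Fin n → ℤˣ) → ℤˣ) (d : ℕ), 1 ≤ d → IsOddFn f → HasDegLE f d →
          W f ≤ Real.sqrt d) ∧
        (∀ (n : ℕ) (f : (Fin n → ℤˣ) → ℤˣ) (d : ℕ), HasDegLE f d →
          W f + |Mean f| ≤ Real.sqrt ((d : ℝ) + 1))) ∨
      (∃ c : ℝ, 0 < c ∧ ∃ C : ℝ, 0 < C ∧ ∀ d : ℕ, 1 ≤ d →
        ∃ (n : ℕ) (f : (Fin n → ℤˣ) → ℤˣ), HasDegLE f d ∧
          C * (d : ℝ) ^ ((1 : ℝ) / 2 + c) ≤ W f))) :=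
  ⟨fun n f h => Vale.Agent.Results.P047.DegreeFour.result n f h,
   fun n d hd f h => Vale.Agent.Results.P047.LevelOneConstant.result n d hd f h,
   fun n f ι _ A σ w hw hc hm =>
     Vale.Agent.Results.P047.FractionalPartition.result n f A σ w hw hc hm,
   Vale.Agent.Results.P047.GapDichotomy.result⟩
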